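import Mathlib.NumberTheory.ArithmeticFunction.Misc
import Mathlib.NumberTheory.PrimeCounting
import Mathlib.Analysis.SpecialFunctions.Log.Basic
import Mathlib.Data.ZMod.Basic
import Mathlib.GroupTheory.OrderOfElement

namespace Vale.Agent.P016

open Classical in
/-- The number of primes `p ≤ x` with `p ∤ a` for which `a` is a primitive root modulo `p`. -/
noncomputable def artinCount (a : ℤ) (x : ℕ) : ℕ :=
  ((Finset.range (x + 1)).filter (fun p : ℕ =>
    p.Prime ∧ ¬ (p : ℤ) ∣ a ∧ orderOf (a : ZMod p) = p - 1)).card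

/-- The main term `∑_{p ≤ x} φ(p-1)/(p-1)`. -/
noncomputable def artinMain (x : ℕ) : ℝ :=
  ∑ p ∈ (Finset.range (x + 1)).filter Nat.Prime, (Nat.totient (p - 1) : ℝ) / ((p - 1 : ℕ) : ℝ)

end Vale.Agent.P016
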