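import Mathlib.Topology.Algebra.InfiniteSum.Defs
import Mathlib.Data.Nat.Prime.Defs
import Mathlib.Data.Real.Basic
import Mathlib.Topology.MetricSpace.Pseudo.Defs
import Mathlib.Topology.Instances.Real.Lemmas
import Mathlib.Data.Nat.Prime.Basic

namespace Vale.Agent.P016

/-- Artin's constant `∏_p (1 - 1/(p(p-1)))`. -/
noncomputable def artinConst : ℝ := ∏' p : Nat.Primes, (1 - 1 / ((p : ℝ) * ((p : ℝ) - 1)))

end Vale.Agent.P016
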